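import Vale.Agent.P251.H240.Weak

/-!
# The weak chromatic splitting conjecture fails for `n = p ≥ 5`

The statement is about the stable homotopy category itself (the localization of the category of
sequential spectra at the stable equivalences) and uses two published theorems as hypotheses.
-/

open CategoryTheory Vale.Agent.P251.SHC

namespace Vale.Agent.Results.P251.Concrete

/-- Published theorem (A) (Ravenel 1978; Hopkins-Miller; Nave 2010): for an odd prime `p` there is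
`β = β_1` in `π_{2p²-2p-2} S` such that `β^{(p-1)²}` is not zero in `π_* L_{K(p-1)} S_p`. -/
def BetaDetected : Prop :=
  ∀ (p : ℕ) (R : ℕ → SymRing), p.Prime → 3 ≤ p → (∀ i, 0 < i → IsMoravaK p i (R i)) →
    ∀ (S₀ : SH) (c : S ⟶ S₀), IsLocalization (ModAcyclic p) c →
      ∃ (V : SH) (v : S₀ ⟶ V),
        IsLocalization (HeightAcyclic (fun i => (R i).toSpectrum) (p - 1)) v ∧
        ∃ β : Pi (2 * p ^ 2 - 2 * p - 2) S,
          ¬ IsNull (powPi β ((p - 1) ^ 2) ≫ c ≫ v)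

/-- Published theorem (B) (Lazard, Serre, Morava, Devinatz-Hopkins): if `p - 1` does not divide
`n ≥ 1`, the `K(n)`-local `E_n`-based Adams filtration of `π_* L_{K(n)} S_p` has a vanishing line at
`n²`. -/
def VanishingLine : Prop :=
  ∀ (p n : ℕ) (R : ℕ → SymRing), p.Prime → 0 < n → ¬ (p - 1) ∣ n →
    (∀ i, 0 < i → IsMoravaK p i (R i)) →
    ∀ (S₀ : SH) (c : S ⟶ S₀), IsLocalization (ModAcyclic p) c →
    ∀ (Z : SH) (z : S₀ ⟶ Z),
      IsLocalization (HeightAcyclic (fun i => (R i).toSpectrum) n) z → HasVanishingLine (n ^ 2) Z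

/-- Let `p` be a prime and `n ≥ p` with `p - 1 ∤ n` and `n² < 2 (p - 1)²`, for example
`n = p ≥ 5`. Then `i_n : L_{n-1} S_p ⟶ L_{n-1} L_{K(n)} S_p` has no homotopy retraction. -/
theorem result (hA : BetaDetected) (hB : VanishingLine) (p n : ℕ) (hp : p.Prime) (hpn : p ≤ n)
    (hdiv : ¬ (p - 1) ∣ n) (hlt : n ^ 2 < 2 * (p - 1) ^ 2)
    (R : ℕ → SymRing) (hR : ∀ i, 0 < i → IsMoravaK p i (R i))
    (S₀ X Z Y : SH)
    (c : S ⟶ S₀) (hc : IsLocalization (ModAcyclic p) c)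
    (l : S₀ ⟶ X)
    (hl : IsLocalization (UpToAcyclic (fun i => (R i).toSpectrum) (n - 1)) l)
    (z : S₀ ⟶ Z) (hz : IsLocalization (HeightAcyclic (fun i => (R i).toSpectrum) n) z)
    (y : Z ⟶ Y)
    (_hy : IsLocalization (UpToAcyclic (fun i => (R i).toSpectrum) (n - 1)) y)
    (i : X ⟶ Y) (hi : l ≫ i = z ≫ y) :
    ¬ ∃ r : Y ⟶ X, i ≫ r = 𝟙 X := by
  have hp2 := hp.two_le
  have hp3 : 3 ≤ p := by
    rcases Nat.lt_or_ge 2 p with h | h
    · exact h
    · exfalso
      have h2 : p = 2 := le_antisymm h hp2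
      exact hdiv (by rw [h2]; exact one_dvd n)
  obtain ⟨V, v, hv, β, hβ⟩ := hA p R hp hp3 hR S₀ c hc
  have hn : 0 < n := by omega
  have hZ := hB p n R hp hn hdiv hR S₀ c hc Z z hz
  obtain ⟨q, rfl⟩ : ∃ q, p = q + 3 := ⟨p - 3, by omega⟩
  have hm : 2 * (q + 3) ^ 2 - 2 * (q + 3) - 2 = 2 * (q ^ 2 + 5 * q + 5) := by
    have : 2 * (q + 3) ^ 2 = 2 * (q ^ 2 + 5 * q + 5) + 2 * (q + 3) + 2 := by ring
    omega
  refine no_retraction (fun i => (R i).toSpectrum) (n := n - 1) (m := q + 3 - 1) (by omega) l hl z y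
    v hv i hi (powPi β ((q + 3 - 1) ^ 2) ≫ c) ?_ ?_
  · rw [Category.assoc]
    refine isNull_powPi hZ (c ≫ z) ?_ ?_ β _ hlt
    · rw [hm]; positivity
    · rw [hm]; exact even_two_mul _
  · rw [Category.assoc]
    exact hβ

end Vale.Agent.Results.P251.Concrete
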