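import Vale.Agent.P251.Q2.Main
import Mathlib.Data.Nat.Prime.Basic

/-!
# P251, Q2: the weak chromatic splitting conjecture fails

`T` is the stable homotopy category of (`p`-local) spectra, `K i` are the Morava `K`-theories,
`c : S ⟶ S_p` is the `p`-completion of the sphere, `z : S_p ⟶ Z = L_{K(n)} S_p`,
`l : S_p ⟶ X = L_{n-1} S_p`, `y : Z ⟶ Y = L_{n-1} L_{K(n)} S_p`, and `i : X ⟶ Y` is the canonical
map `i_n`.  `L : T ⥤ D` is `K(n)`-localization, `E` is Morava `E`-theory `E_n`, `I` is the fibre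
of its unit, and `κ : S_p ⟶ V = L_{K(p-1)} S_p`.
-/

set_option linter.unusedVariables false

open CategoryTheory MonoidalCategory Limits Pretriangulated MonObj

universe v u v' u'

/-- The weak chromatic splitting fails at `(n, p)` whenever `p ≤ n`, `p - 1` does not divide `n`
and `n ^ 2 < 2 (p - 1) ^ 2` (for instance `n = p ≥ 5`). -/
theorem Vale.Agent.Results.P251.Conditional.result
    -- the stable homotopy category
    {T : Type u} [Category.{v} T] [Preadditive T] [HasZeroObject T] [HasShift T ℤ]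
    [∀ n : ℤ, (shiftFunctor T n).Additive] [Pretriangulated T] [MonoidalCategory T]
    [SymmetricCategory T] [Vale.Agent.P251.TensorTriangulated T]
    -- the `K(n)`-local category
    {D : Type u'} [Category.{v'} D] [Preadditive D] [HasZeroObject D] [HasShift D ℤ]
    [∀ n : ℤ, (shiftFunctor D n).Additive] [Pretriangulated D] [MonoidalCategory D]
    [SymmetricCategory D] [Vale.Agent.P251.TensorTriangulated D]
    -- the prime and the height
    (p n : ℕ) (prime : p.Prime) (p_le_n : p ≤ n) (not_dvd : ¬ (p - 1) ∣ n)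
    (n_small : n ^ 2 < 2 * (p - 1) ^ 2)
    -- Morava `K`-theories
    (K : ℕ → T)
    -- the `p`-complete sphere
    {M Sp : T} {a : 𝟙_ T ⟶ M} {b : M ⟶ (𝟙_ T)⟦(1 : ℤ)⟧}
    (moore : Triangle.mk ((p : ℤ) • 𝟙 (𝟙_ T)) a b ∈ distTriang T)
    (c : 𝟙_ T ⟶ Sp)
    (p_completion : Vale.Agent.P251.IsBousfieldLocalization (fun _ : Unit => M) c)
    -- its `K(n)`-localization, and the `E(n-1)`-localizations of both
    {Z : T} (z : Sp ⟶ Z)
    (K_n_localization : Vale.Agent.P251.IsBousfieldLocalization (fun _ : Unit => K n) z)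
    {X Y : T} (l : Sp ⟶ X)
    (L_sphere : Vale.Agent.P251.IsBousfieldLocalization (Vale.Agent.P251.upTo K (n - 1)) l)
    (y : Z ⟶ Y)
    (L_overlap : Vale.Agent.P251.IsBousfieldLocalization (Vale.Agent.P251.upTo K (n - 1)) y)
    -- the canonical map
    (i : X ⟶ Y) (i_canonical : l ≫ i = z ≫ y)
    -- `K(n)`-localization as a functor to the `K(n)`-local category
    (L : T ⥤ D) [L.Additive] [L.CommShift ℤ] [L.IsTriangulated] [L.Monoidal]
    (R : D ⥤ T) (adj : L ⊣ R) [R.Full] [R.Faithful]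
    (kernel : ∀ W : T, IsZero (L.obj W) ↔ IsZero (K n ⊗ W))
    -- Morava `E`-theory, and the fibre `I` of its unit
    {E I : D} [MonObj E] {ι : I ⟶ 𝟙_ D} {δ : E ⟶ I⟦(1 : ℤ)⟧}
    (fibre : Triangle.mk ι η[E] δ ∈ distTriang D)
    (homotopy_of_E_torsion_free : ∀ (j : ℤ) (g : (𝟙_ D)⟦j⟧ ⟶ E), p • g = 0 → g = 0)
    (cooperations_even : ∀ j : ℤ, Odd j → ∀ g : (𝟙_ D)⟦j⟧ ⟶ E ⊗ E, g = 0)
    -- Devinatz-Hopkins, Lazard, Serre: `E₂^{s,*} = H^s(G_n; π_* E_n) = 0` for `s > n ^ 2`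
    (E₂_vanishing : ∀ s : ℕ, n ^ 2 ≤ s →
      ∀ (j : ℤ) (e : (𝟙_ D)⟦j⟧ ⟶ Vale.Agent.P251.tensorPower I (s + 1) ⊗ E),
        e ≫ Vale.Agent.P251.adamsD1 δ (s + 1) = 0 →
        ∃ h : ((𝟙_ D)⟦j⟧)⟦(1 : ℤ)⟧ ⟶ Vale.Agent.P251.tensorPower I s ⊗ E,
          h ≫ Vale.Agent.P251.adamsD1 δ s = e⟦(1 : ℤ)⟧')
    -- convergence
    (E_nilpotence : ∀ j : ℤ, ∃ N : ℕ, ∀ x : (𝟙_ D)⟦j⟧ ⟶ Vale.Agent.P251.tensorPower I N,
      x ≫ Vale.Agent.P251.towerMap ι N = 0)
    -- Hopkins-Miller: `β₁^{(p-1)^2}` is nonzero in the homotopy of the `K(p-1)`-local sphere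
    {V : T} (κ : Sp ⟶ V)
    (K_p_sub_one_localization :
      Vale.Agent.P251.IsBousfieldLocalization (fun _ : Unit => K (p - 1)) κ)
    (β : (𝟙_ T)⟦(2 * (p : ℤ) ^ 2 - 2 * p - 2 : ℤ)⟧ ⟶ 𝟙_ T) (β_torsion : p • β = 0)
    (β_power_ne_zero : Vale.Agent.P251.power β ((p - 1) ^ 2) ≫ c ≫ κ ≠ 0) :
    ¬ ∃ r : Y ⟶ X, i ≫ r = 𝟙 X :=
  Vale.Agent.P251.no_retraction p_le_n n_small prime.pos K c z K_n_localization l L_sphere y i
    i_canonical L R adj kernel fibre homotopy_of_E_torsion_free cooperations_even E₂_vanishing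
    E_nilpotence κ K_p_sub_one_localization
    (Int.even_iff.2 (by omega)) β β_torsion β_power_ne_zero
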