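import Vale.Agent.P251.R.Final

/-!
# P251, Q1: the strong chromatic splitting formula fails at the prime 2 for every `n ≥ 2`

`T` is the stable homotopy category of (`2`-local) spectra, `K i` are the Morava `K`-theories at
the prime `2`, `c : 𝟙 ⟶ S` is the `2`-completion of the sphere, `l j : S ⟶ X j = L_j S`,
`z : S ⟶ Z = L_{K(n)} S`, `y : Z ⟶ Y = L_{n-1} L_{K(n)} S`.  `D` is the `K(n)`-local category,
`I : D ⥤ T` the inclusion, `E` is Morava `E`-theory `E_n`, and `X₁, X₂` are the quadratic Galois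
extensions `E_n^{h N₁}`, `E_n^{h N₂}` of the `K(n)`-local sphere.
-/

set_option linter.unusedVariables false

open CategoryTheory MonoidalCategory Limits Pretriangulated MonObj
open scoped CategoryTheory.Obj

universe v u v' u'

/-- The strong chromatic splitting formula fails at the prime `2` for every height `n ≥ 2`. -/
theorem Vale.Agent.Results.P251.PrimeTwo.result
    -- the stable homotopy category
    {T : Type u} [Category.{v} T] [Preadditive T] [HasZeroObject T] [HasShift T ℤ]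
    [∀ n : ℤ, (shiftFunctor T n).Additive] [Pretriangulated T] [MonoidalCategory T]
    [SymmetricCategory T] [Vale.Agent.P251.TensorTriangulated T] [HasFiniteBiproducts T]
    -- the `K(n)`-local category
    {D : Type u'} [Category.{v'} D] [Preadditive D] [HasZeroObject D] [HasShift D ℤ]
    [∀ n : ℤ, (shiftFunctor D n).Additive] [Pretriangulated D] [MonoidalCategory D]
    [SymmetricCategory D] [Vale.Agent.P251.TensorTriangulated D]
    (n : ℕ) (hn : 2 ≤ n)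
    -- Morava `K`-theories
    (K : ℕ → T) [MonObj (K (n - 1))]
    (K_orthogonal : ∀ i j, i ≠ j → IsZero (K i ⊗ K j))
    (K_homotopy : ∀ i : ℤ, Nat.card ((𝟙_ T)⟦i⟧ ⟶ K (n - 1)) =
      if (2 * (2 ^ (n - 1) - 1) : ℤ) ∣ i then 2 else 1)
    (smashing : ∀ (j : ℕ) {X Y : T} (f : X ⟶ Y),
      Vale.Agent.P251.IsBousfieldLocalization (Vale.Agent.P251.upTo K j) f →
      ∀ Z : T, Vale.Agent.P251.IsBousfieldLocalization (Vale.Agent.P251.upTo K j) (Z ◁ f))
    -- the `2`-complete sphere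
    {M S : T} {a : 𝟙_ T ⟶ M} {b : M ⟶ (𝟙_ T)⟦(1 : ℤ)⟧}
    (moore : Triangle.mk ((2 : ℤ) • 𝟙 (𝟙_ T)) a b ∈ distTriang T)
    (c : 𝟙_ T ⟶ S)
    (completion : Vale.Agent.P251.IsBousfieldLocalization (fun _ : Unit => M) c)
    -- its localizations
    {X : ℕ → T} (l : ∀ j, S ⟶ X j)
    (L_sphere : ∀ j, Vale.Agent.P251.IsBousfieldLocalization (Vale.Agent.P251.upTo K j) (l j))
    {Z Y : T} (z : S ⟶ Z)
    (K_n_localization : Vale.Agent.P251.IsBousfieldLocalization (fun _ : Unit => K n) z)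
    (y : Z ⟶ Y)
    (L_overlap : Vale.Agent.P251.IsBousfieldLocalization (Vale.Agent.P251.upTo K (n - 1)) y)
    -- the inclusion of the `K(n)`-local category
    (I : D ⥤ T) [I.Additive] [I.LaxMonoidal] [I.CommShift ℤ] [I.IsTriangulated]
    (e : I.obj (𝟙_ D) ≅ Z)
    -- the quadratic Galois extensions, and Thom isomorphisms
    (X₁ X₂ : Vale.Agent.P251.QuadraticExt D)
    (thom₁ : Nonempty (I ⋙ tensorLeft (K (n - 1)) ≅
      tensorRight (X₁.L ⊗ X₁.L) ⋙ I ⋙ tensorLeft (K (n - 1))))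
    (thom₂ : Nonempty (I ⋙ tensorLeft (K (n - 1)) ≅
      tensorRight (X₂.L ⊗ X₂.L) ⋙ I ⋙ tensorLeft (K (n - 1))))
    -- Morava `E`-theory, with two elements of the Morava stabilizer group
    (E : D) [MonObj E] [IsCommMonObj E] (j₁ : X₁.A ⟶ E) [IsMonHom j₁] (j₂ : X₂.A ⟶ E)
    [IsMonHom j₂] (γ₁ γ₂ : E ⟶ E) [IsMonHom γ₁] [IsMonHom γ₂]
    (act₁₁ : j₁ ≫ γ₁ = X₁.s ≫ j₁) (act₁₂ : j₁ ≫ γ₂ = j₁) (act₂₂ : j₂ ≫ γ₂ = X₂.s ≫ j₂)
    (nonzero : η[K (n - 1) ⊗ I.obj E] ≠ 0)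
    (gross₁ : ∀ (x : 𝟙_ T ⟶ K (n - 1) ⊗ I.obj E) (k : ℕ), 0 < k →
      Vale.Agent.P251.square^[k] x = x → x ≫ (K (n - 1) ◁ I.map γ₁) = x)
    (gross₂ : ∀ (x : 𝟙_ T ⟶ K (n - 1) ⊗ I.obj E) (k : ℕ), 0 < k →
      Vale.Agent.P251.square^[k] x = x → x ≫ (K (n - 1) ◁ I.map γ₂) = x) :
    IsEmpty (Vale.Agent.P251.splittingModel X n ≅ Y) :=
  Vale.Agent.P251.no_splitting n hn K K_orthogonal K_homotopy smashing M a b moore S c completion
    X l L_sphere Z z K_n_localization Y y L_overlap I e X₁ X₂ thom₁ thom₂ E j₁ j₂ γ₁ γ₂ act₁₁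
    act₁₂ act₂₂ nonzero
    (fun x k hk hx => gross₁ x k hk ((Vale.Agent.P251.pow_two_pow_eq x k).symm.trans hx))
    (fun x k hk hx => gross₂ x k hk ((Vale.Agent.P251.pow_two_pow_eq x k).symm.trans hx))
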